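import Vale.Agent.P286EQ.Defs
import Vale.Agent.P286EF.Ob
import Vale.Agent.P286EP.Retw
import Vale.Agent.P286EZ.Top

/-!
# The two presentations of the test category of `Bun_G(E)` agree
-/

set_option linter.all false

namespace Vale.Agent.P286EQ

open CategoryTheory Matrix Vale.Agent.P286 Vale.Agent.P286.H96
open Vale.Agent.P286E (EQV WD)

noncomputable section

section Ring

variable {N : ℕ} {A B : Type} [CommRing A] [CommRing B]

theorem lin_eq (v : ℕ × Fin N → Fin N → LaurentSeries A) (z : ℕ × Fin N →₀ A) :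
    lin N A v z = P286E.lin v z := by
  funext i
  rw [lin, P286E.lin, Finsupp.linearCombination_apply, Finsupp.sum, Finsupp.sum, Finset.sum_apply]
  rfl

theorem lin_eq' (v : ℕ × Fin N → Fin N → LaurentSeries A) : lin N A v = P286E.lin v :=
  funext (lin_eq v)

theorem std_eq (p : ℕ × Fin N) : std N A p = P286E.std N A p :=
  funext fun i => by rw [std, P286E.std, Pi.single_apply]

theorem adm_iff (v : ℕ × Fin N → Fin N → LaurentSeries A) : Adm N A v ↔ P286E.Adm v := by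
  rw [Adm, P286E.Adm, lin_eq']
  refine and_congr (exists_congr fun s => forall₃_congr fun z p _ => ?_) ⟨?_, ?_⟩
  · exact (sub_eq_zero (a := pol N A (P286E.lin v z) p) (b := z p)).symm
  · rintro ⟨n, L, h, h1, h2⟩
    exact ⟨n, h.mk' L, LinearMap.ext h1, h2⟩
  · rintro ⟨n, L, h1, h2⟩
    exact ⟨n, L, L.isLinear, fun z => LinearMap.congr_fun h1 z, h2⟩

theorem crd_eq {v : ℕ × Fin N → Fin N → LaurentSeries A} (h : P286E.Adm v)
    {w : Fin N → LaurentSeries A} (hw : w ∈ LinearMap.range (P286E.lin v)) :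
    crd N A v w = P286E.crd v w := by
  have h1 : lin N A v (crd N A v w) = w :=
    Classical.epsilon_spec (p := fun z => lin N A v z = w) (by rw [lin_eq']; exact hw)
  rw [lin_eq] at h1
  exact h.inj (h1.trans (h.lin_crd hw).symm)

theorem fdet_eq {I : Type} (φ : Module.End A (I →₀ A)) :
    fdet A I (fun i j => φ (Finsupp.single j 1) i) = P286.fdet φ := rfl

end Ring

/-- The curve. -/
def toE (E : Ell) : P286E.Ell := ⟨E.a, E.b, E.y, E.disc, E.eqn, E.lead⟩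

/-- The group. -/
def toG {N : ℕ} (G : Grp N) : P286E.Grp := ⟨N, G.F, G.β⟩

variable {N : ℕ} {E : Ell} {G : Grp N}

/-- The lattice as a submodule. -/
def Ob.sub (X : Ob N E G) : Submodule X.A.R (Fin N → LaurentSeries X.A.R) where
  carrier := X.M
  add_mem' {a b} ha hb := by
    obtain ⟨v, -, h⟩ := X.ok.adm
    rw [← h, lin_eq'] at ha hb ⊢
    exact (LinearMap.range (P286E.lin v)).add_mem ha hb
  zero_mem' := by
    obtain ⟨v, -, h⟩ := X.ok.adm
    rw [← h, lin_eq']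
    exact (LinearMap.range (P286E.lin v)).zero_mem
  smul_mem' c a ha := by
    obtain ⟨v, -, h⟩ := X.ok.adm
    change c • a ∈ X.M
    change a ∈ X.M at ha
    rw [← h, lin_eq'] at ha ⊢
    exact (LinearMap.range (P286E.lin v)).smul_mem c ha

/-- The object. -/
def Ob.up (X : Ob N E G) : P286E.Ob (toE E) (toG G) where
  A := X.A
  M := X.sub
  adm := by
    obtain ⟨v, hv, h⟩ := X.ok.adm
    rw [lin_eq'] at h
    exact ⟨v, (adm_iff v).1 hv, SetLike.coe_injective h⟩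
  reg := X.ok.reg
  form := X.ok.form
  vol := X.ok.vol
  T := X.T
  admT := (adm_iff _).1 X.ok.admT
  lie := X.ok.lie

/-- The object. -/
def down (Z : P286E.Ob (toE E) (toG G)) : Ob N E G where
  A := Z.A
  M := (Z.M : Set (Fin (toG G).N → P286E.Ls Z.A.R))
  T := Z.T
  ok :=
    { adm := by
        obtain ⟨v, hv, h⟩ := Z.adm
        exact ⟨v, (adm_iff v).2 hv, (congrArg Set.range (lin_eq' v)).trans
          (congrArg SetLike.coe h)⟩
      reg := Z.reg
      form := Z.form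
      vol := Z.vol
      admT := (adm_iff _).2 Z.admT
      lie := Z.lie }

theorem up_down (Z : P286E.Ob (toE E) (toG G)) : (down Z).up = Z := rfl

variable {X Y : Ob N E G}

/-- The morphism. -/
def Mo.up (φ : Mo X Y) : P286E.Mo X.up Y.up where
  f := φ.f
  a := φ.a
  int := φ.ok.int
  det := φ.ok.det
  form := φ.ok.form
  lat := φ.ok.lat
  lie z := by
    obtain ⟨w, h⟩ := φ.ok.lie z
    rw [lin_eq', lin_eq'] at h
    exact ⟨w, h⟩

/-- The morphism. -/
def downM (ψ : P286E.Mo X.up Y.up) : Mo X Y where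
  f := ψ.f
  a := ψ.a
  ok :=
    { int := ψ.int
      det := ψ.det
      form := ψ.form
      lat := ψ.lat
      lie := fun z => by
        obtain ⟨w, h⟩ := ψ.lie z
        refine ⟨w, ?_⟩
        rw [lin_eq', lin_eq']
        exact h }

theorem dl_up (hG : (toG G).Ok) (φ : Mo X Y) :
    dl N X.A.R Y.A.R G φ.f.r φ.a X.T Y.T = φ.up.dl := by
  rw [P286E.Mo.dl_eq, ← fdet_eq, dl]
  congr 2
  funext p q
  have h : φ.up.tT q = ad N Y.A.R G φ.a *ᵥ lin 3 Y.A.R (fun r => lm X.A.R Y.A.R φ.f.r ∘ X.T r)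
      (pol 3 Y.A.R (ad N Y.A.R G φ.a.adjugate *ᵥ std 3 Y.A.R q)) := by
    rw [P286E.Mo.tT, P286E.gau_apply, lin_eq, std_eq, ← P286E.lin_single (P286E.std 3 Y.A.R) q]
    rfl
  have h1 : φ.up.tT q ∈ LinearMap.range (P286E.lin Y.up.T) :=
    φ.up.tT_le hG ⟨Finsupp.single q 1, P286E.lin_single _ _⟩
  rw [← h, P286E.chg, LinearMap.comp_apply, P286E.lin_single]
  exact congrArg (fun z : ℕ × Fin 3 →₀ Y.A.R => z p) (crd_eq Y.up.admT h1)

/-- The equivalence of the test categories. -/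
def eqF (E : Ell) (G : Grp N) (c : ℂ) :
    P286EP.EqF (P286E.DE (toE E) (toG G) c) (DE N E G c) where
  ob := Ob.up
  map := Mo.up
  map_id _ := P286E.Mo.ext rfl rfl
  map_comp _ _ := P286E.Mo.ext rfl rfl
  full _ _ ψ := ⟨downM ψ, P286E.Mo.ext rfl rfl⟩
  faith _ _ _ _ h := Mo.ext (congrArg P286E.Mo.f h) (congrArg P286E.Mo.a h)
  ess Z := ⟨down Z, P286E.Mo.one Z, P286E.Mo.one Z, P286E.Mo.one_comp _, P286E.Mo.one_comp _⟩
  i _ := AlgEquiv.refl
  nat _ _ := rfl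

theorem good (hG : (toG G).Ok) (c : ℂ) : P286ER.Good (DE N E G c) where
  f_id _ := rfl
  f_comp _ _ := rfl
  unit φ := (congrArg IsUnit (dl_up hG φ)).mpr (P286E.Mo.dl_unit hG (Mo.up φ))
  dl_comp φ ψ := by
    have h := P286E.Mo.dl_comp hG (Mo.up φ) (Mo.up ψ)
    rw [← dl_up hG φ, ← dl_up hG ψ] at h
    exact (dl_up hG (Mo.comp φ ψ)).trans h

theorem eqv (hG : (toG G).Ok) (E : Ell) (c : ℂ) :
    EQV (WD.st (P286E.DE (toE E) (toG G) c)) (WD.st (DE N E G c)) :=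
  (eqF E G c).eqv_one (P286E.good_DE hG c) (good hG c) (fun _ => rfl) (fun _ => rfl) 1
    (by rw [Nat.cast_one, one_mul]; rfl) fun X Y φ => ⟨1, by
      rw [map_one, one_mul, pow_one]
      exact (dl_up hG φ).symm⟩

theorem eqv2 (E : Ell) (c : ℂ) :
    EQV (WD.st (P286E.DE (toE E) P286E.SL2 c)) (WD.st (DE 2 E SL2 c)) :=
  eqv (G := SL2) P286E.ok_SL2 E c

theorem eqv3 (E : Ell) (c : ℂ) :
    EQV (WD.st (P286E.DE (toE E) P286E.SO3 c)) (WD.st (DE 3 E SO3 c)) :=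
  eqv (G := SO3) P286E.ok_SO3 E c

/-- The statement of the hand-in from the three equivalences. -/
theorem top (h1 : P286E.GEO1) (h2 : P286E.GEO2) (h3 : P286E.MID) :
    (∀ a b : ℂ, 4 * a ^ 3 + 27 * b ^ 2 ≠ 0 → ∃ E : Ell, E.a = a ∧ E.b = b) ∧
    ∀ (E : Ell) (c : ℂ), (∀ q : ℚ, c ≠ (q : ℂ)) →
      DGEq (DE 2 E SL2 c) (DE 3 E SO3 (-1 / c)) ∧ DGEq (DE 3 E SO3 c) (DE 2 E SL2 (-1 / c)) ∧
      IsNz (DE 2 E SL2 c) ∧ IsNz (DE 3 E SO3 c) := by
  refine ⟨fun a b h => ?_, fun E c hc => ?_⟩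
  · obtain ⟨E, h1, h2⟩ := P286EZ.exe a b h
    exact ⟨⟨E.a, E.b, E.y, E.disc, E.eqn, E.lead⟩, h1, h2⟩
  obtain ⟨e⟩ := P286EZ.exists_rt (toE E)
  have h := (P286EZ.main h1 h2 h3 (toE E) _ (P286EZ.irr_inv hc)).symm
  rw [show -1 / (-1 / c) = c by have := P286EZ.irr_ne hc; field_simp] at h
  have k := P286EZ.main h1 h2 h3 (toE E) c hc
  exact ⟨(((eqv2 E c).symm.trans k).trans (eqv3 E _)).dgEq,
    (((eqv3 E c).symm.trans h).trans (eqv2 E _)).dgEq,
    P286EZ.nz_of_v4 (((eqv2 E c).symm.trans k).trans (h2 _ e _ (P286EZ.irr_inv hc))),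
    P286EZ.nz_of_v4 ((eqv3 E c).symm.trans (h2 _ e c hc))⟩

end

end Vale.Agent.P286EQ
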