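import Vale.Agent.P286.H96.DGD

/-!
# The stacks `Bun_G(E)` for an elliptic curve `E` and `G = SL_2`, `SO_3 = PGL_2`

`E` is the curve `y² = x³ + a x + b` with the origin `o` and the formal coordinate `t` at `o`,
`x = t⁻²`.  A vector bundle `V` on `E_A` with a trivialisation on the formal disc at `o` is given by
the module `M ⊆ A((t))^N` of its sections over `E_A - o`; its cohomology is computed by the map
`M → A((t))^N / A[[t]]^N` (polar parts).
-/

namespace Vale.Agent.P286EQ

open CategoryTheory Matrix Vale.Agent.P286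

noncomputable section

section Ring

variable (N : ℕ) (A B D : Type) [CommRing A] [CommRing B] [CommRing D]

/-- Vectors of Laurent series. -/
abbrev Vc : Type := Fin N → LaurentSeries A

/-- Matrices of Laurent series. -/
abbrev Mt : Type := Matrix (Fin N) (Fin N) (LaurentSeries A)

/-- Base change of Laurent series (coefficientwise). -/
def lm (f : A →+* B) (w : LaurentSeries A) : LaurentSeries B := w.map f

/-- The series `w` lies in `tⁿ A[[t]]`. -/
def Ord (n : ℤ) (w : LaurentSeries A) : Prop := ∀ k < n, w.coeff k = 0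

/-- The function `x = t⁻²`. -/
def xs : LaurentSeries A := HahnSeries.single (-2) 1

/-- An elliptic curve, with the expansion of `y` at the origin. -/
structure Ell where
  a : ℂ
  b : ℂ
  y : LaurentSeries ℂ
  disc : 4 * a ^ 3 + 27 * b ^ 2 ≠ 0
  eqn : y ^ 2 = xs ℂ ^ 3 + a • xs ℂ + b • 1
  lead : y.coeff (-3) = 1

/-- The series `w` is a function on `E_A - o`: `w = p(x) + q(x) y`. -/
def Reg [Algebra ℂ A] (E : Ell) (w : LaurentSeries A) : Prop :=
  ∃ p q : Polynomial A, w = p.eval₂ HahnSeries.C (xs A) +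
    q.eval₂ HahnSeries.C (xs A) * lm ℂ A (algebraMap ℂ A) E.y

theorem pol_fin (v : Fin N → LaurentSeries A) :
    (Function.support fun p : ℕ × Fin N => (v p.2).coeff (-(p.1 + 1 : ℤ))).Finite := by
  refine ((Set.finite_Iic (Finset.univ.sup fun i => (-(v i).order).toNat)).prod
    Set.finite_univ).subset fun p hp => ⟨?_, trivial⟩
  have h1 : (v p.2).order ≤ -(p.1 + 1 : ℤ) := HahnSeries.order_le_of_coeff_ne_zero hp
  have h2 : (-(v p.2).order).toNat ≤ Finset.univ.sup fun i => (-(v i).order).toNat :=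
    Finset.le_sup (f := fun i => (-(v i).order).toNat) (Finset.mem_univ p.2)
  exact Set.mem_Iic.2 (by omega)

/-- The polar part, in the free module `A((t))^N / A[[t]]^N` with the basis `t^(-k-1) e_i`. -/
def pol (v : Fin N → LaurentSeries A) : ℕ × Fin N →₀ A := Finsupp.ofSupportFinite _ (pol_fin N A v)

/-- The standard vectors `t^(-k-1) e_i`. -/
def std (p : ℕ × Fin N) (i : Fin N) : LaurentSeries A :=
  if i = p.2 then HahnSeries.single (-(p.1 + 1 : ℤ)) 1 else 0

/-- The linear combination `∑ z_p v_p`. -/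
def lin (v : ℕ × Fin N → Fin N → LaurentSeries A) (z : ℕ × Fin N →₀ A) (i : Fin N) :
    LaurentSeries A := z.sum fun p c => c • v p i

/-- The coordinates of `w` in the basis `v`. -/
def crd (v : ℕ × Fin N → Fin N → LaurentSeries A) (w : Fin N → LaurentSeries A) :
    ℕ × Fin N →₀ A := Classical.epsilon fun z => lin N A v z = w

/-- The vectors `v p` are an *admissible basis* of their span `M`: up to an operator of finite rank
the polar part of `v p` is the standard vector, and `M → A((t))^N / tⁿ A[[t]]^N` is a split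
injection for some `n`. -/
def Adm (v : ℕ × Fin N → Fin N → LaurentSeries A) : Prop :=
  (∃ s : Finset (ℕ × Fin N), ∀ z, ∀ p ∉ s, pol N A (lin N A v z) p = z p) ∧
  ∃ (n : ℤ) (L : (Fin N → LaurentSeries A) → ℕ × Fin N →₀ A), IsLinearMap A L ∧
    (∀ z, L (lin N A v z) = z) ∧ ∀ w, (∀ i, Ord A n (w i)) → L w = 0

open Classical in
/-- The Fredholm determinant of an infinite matrix `m` such that `m - 1` has finitely many nonzero
rows: the common value of `det (m_{ij})_{i,j ∈ s}` for all large finite sets `s`. -/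
def fdet (I : Type) (m : I → I → A) : A :=
  if h : ∃ d : A, ∃ s₀ : Finset I, ∀ s : Finset I, s₀ ⊆ s → (of fun i j : s => m i j).det = d
  then h.choose else 1

/-- The group of the matrices of determinant `1` which preserve the form `F`, with a basis `β` of its
Lie algebra such that `tr (β i * β j) = 2 δ_ij`. -/
structure Grp where
  F : Matrix (Fin N) (Fin N) ℂ
  β : Fin 3 → Matrix (Fin N) (Fin N) ℂ

open Complex in
/-- `SL_2 = Sp_2` with the Pauli matrices. -/
def SL2 : Grp 2 := ⟨!![0, 1; -1, 0], ![!![0, 1; 1, 0], !![0, -I; I, 0], !![1, 0; 0, -1]]⟩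

open Complex in
/-- `SO_3 = PGL_2` with the infinitesimal rotations. -/
def SO3 : Grp 3 := ⟨1, ![!![0, 0, 0; 0, 0, -I; 0, I, 0], !![0, 0, I; 0, 0, 0; -I, 0, 0],
  !![0, -I, 0; I, 0, 0; 0, 0, 0]]⟩

/-- The matrix `b g(a)`. -/
def cmp (g : A →+* B) (b : Matrix (Fin N) (Fin N) (LaurentSeries B))
    (a : Matrix (Fin N) (Fin N) (LaurentSeries A)) : Mt N B := b * a.map (lm A B g)

/-- The unit matrix. -/
def one : Mt N A := (1 : Matrix (Fin N) (Fin N) (LaurentSeries A))

variable [Algebra ℂ A] [Algebra ℂ B]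

/-- A constant matrix. -/
def cst (m : Matrix (Fin N) (Fin N) ℂ) : Matrix (Fin N) (Fin N) (LaurentSeries A) :=
  m.map fun c => HahnSeries.C (algebraMap ℂ A c)

/-- The element `∑ ξ_i β_i` of `𝔤 ⊗ A((t))`. -/
def hat (G : Grp N) (ξ : Fin 3 → LaurentSeries A) : Matrix (Fin N) (Fin N) (LaurentSeries A) :=
  ∑ i, ξ i • cst N A (G.β i)

/-- The matrix of the adjoint action of `a` in the basis `β`. -/
def ad (G : Grp N) (a : Matrix (Fin N) (Fin N) (LaurentSeries A)) :
    Matrix (Fin 3) (Fin 3) (LaurentSeries A) :=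
  of fun i j => algebraMap ℂ A 2⁻¹ • trace (cst N A (G.β i) * a * cst N A (G.β j) * a.adjugate)

/-- `M` is the module of sections over `E_A - o` of the vector bundle `V` of a `G`-bundle on `E_A`
with a trivialisation on the formal disc, and `T` is an admissible basis of the sections of the
adjoint bundle; it defines a generator of `ω = det RΓ(𝔤_V)`. -/
structure IsOb (E : Ell) (G : Grp N) (M : Set (Fin N → LaurentSeries A))
    (T : ℕ × Fin 3 → Fin 3 → LaurentSeries A) : Prop where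
  adm : ∃ v, Adm N A v ∧ Set.range (lin N A v) = M
  reg : ∀ w, Reg A E w → ∀ m ∈ M, (fun i => w * m i) ∈ M
  form : ∀ m ∈ M, ∀ m' ∈ M, Reg A E (m ⬝ᵥ cst N A G.F *ᵥ m')
  vol : ∀ m : Matrix (Fin N) (Fin N) (LaurentSeries A), (∀ i, m i ∈ M) → Reg A E m.det
  admT : Adm 3 A T
  lie : ∀ p, ∀ m ∈ M, hat N A G (T p) *ᵥ m ∈ M

/-- The element `a ∈ G(B[[t]])` maps the base change of `V` and `𝔤_V` along `f` to `V'` and
`𝔤_{V'}`. -/
structure IsMo (G : Grp N) (f : A →+* B) (a : Matrix (Fin N) (Fin N) (LaurentSeries B))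
    (M : Set (Fin N → LaurentSeries A)) (T : ℕ × Fin 3 → Fin 3 → LaurentSeries A)
    (M' : Set (Fin N → LaurentSeries B)) (T' : ℕ × Fin 3 → Fin 3 → LaurentSeries B) : Prop where
  int : ∀ i j, Ord B 0 (a i j)
  det : a.det = 1
  form : aᵀ * cst N B G.F * a = cst N B G.F
  lat : ∀ m ∈ M, a *ᵥ (lm A B f ∘ m) ∈ M'
  lie : ∀ z, ∃ w, hat N B G (lin 3 B T' w) * a = a * (hat N A G (lin 3 A T z)).map (lm A B f)

/-- The unit `δ` with `t' = δ • φ_* t`: the inverse of the Fredholm determinant of the operator on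
`B((t))^3 / B[[t]]^3` which is `Ad(a)⁻¹` followed by the matrix of the transported basis
`Ad(a) f(T)` in the basis `T'`. -/
def dl (G : Grp N) (f : A →+* B) (a : Matrix (Fin N) (Fin N) (LaurentSeries B))
    (T : ℕ × Fin 3 → Fin 3 → LaurentSeries A) (T' : ℕ × Fin 3 → Fin 3 → LaurentSeries B) : B :=
  Ring.inverse (fdet B _ fun p q => crd 3 B T' (ad N B G a *ᵥ lin 3 B (fun r => lm A B f ∘ T r)
    (pol 3 B (ad N B G a.adjugate *ᵥ std 3 B q))) p)

end Ring

variable (N : ℕ) (E : Ell) (G : Grp N)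

/-- The test objects of `Bun_G(E)`. -/
structure Ob : Type 1 where
  A : SmAlg
  M : Set (Vc N A.R)
  T : ℕ × Fin 3 → Vc 3 A.R
  ok : IsOb N A.R E G M T

variable {N E G}

/-- The morphisms. -/
@[ext]
structure Mo (X Y : Ob N E G) : Type where
  f : X.A.Hm Y.A
  a : Mt N Y.A.R
  ok : IsMo N X.A.R Y.A.R G f.r a X.M X.T Y.M Y.T

/-- `lm` as a homomorphism. -/
def lmh {A B : Type} [CommRing A] [CommRing B] (f : A →+* B) :
    LaurentSeries A →+* LaurentSeries B where
  toFun := lm A B f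
  map_zero' := HahnSeries.map_zero f.toZeroHom
  map_one' := HahnSeries.map_one f.toMonoidWithZeroHom
  map_add' _ _ := HahnSeries.map_add f.toAddMonoidHom
  map_mul' _ _ := HahnSeries.map_mul f.toNonUnitalRingHom

theorem one_ok (X : Ob N E G) :
    IsMo N X.A.R X.A.R G (SmAlg.Hm.id X.A).r (one N X.A.R) X.M X.T X.M X.T where
  int i j k hk := by
    rw [one, one_apply]
    split_ifs
    · exact HahnSeries.coeff_single_of_ne hk.ne
    · rfl
  det := det_one
  form := by rw [one, transpose_one, Matrix.one_mul, Matrix.mul_one]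
  lat m hm := by rw [one, one_mulVec]; exact hm
  lie z := ⟨z, by rw [one, Matrix.one_mul, Matrix.mul_one]; rfl⟩

variable {X Y Z W : Ob N E G}

theorem cmp_ok (φ : Mo X Y) (ψ : Mo Y Z) : IsMo N X.A.R Z.A.R G (ψ.f.comp φ.f).r
    (cmp N Y.A.R Z.A.R ψ.f.r ψ.a φ.a) X.M X.T Z.M Z.T where
  int i j k hk := by
    rw [cmp, mul_apply, HahnSeries.coeff_sum]
    refine Finset.sum_eq_zero fun l _ => ?_
    rw [HahnSeries.coeff_mul]
    refine Finset.sum_eq_zero fun p hp => ?_
    have h : p.1 + p.2 = k := ((Finset.mem_antidiagonal (hs := HahnSeries.isPWO_support _)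
      (ht := HahnSeries.isPWO_support _)).1 hp).2.2
    by_cases h1 : p.1 < 0
    · rw [ψ.ok.int i l _ h1, zero_mul]
    · exact mul_eq_zero_of_right _
        ((congrArg ψ.f (φ.ok.int l j p.2 (by omega))).trans (map_zero _))
  det := by
    rw [cmp, det_mul, ψ.ok.det, one_mul]
    exact ((lmh ψ.f.r).map_det _).symm.trans (by rw [φ.ok.det, map_one])
  form := by
    have h := congrArg (fun m => m.map (lmh ψ.f.r)) φ.ok.form
    have e : (cst N _ G.F).map (lmh ψ.f.r) = cst N _ G.F := ext fun i j =>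
      (HahnSeries.map_single (f := ψ.f.r.toZeroHom)).trans
        (congrArg (HahnSeries.single (0 : ℤ)) (ψ.f.commutes _))
    simp only [Matrix.map_mul, e, transpose_map] at h
    rw [cmp, transpose_mul, Matrix.mul_assoc, Matrix.mul_assoc, ← Matrix.mul_assoc (cst _ _ _),
      ← Matrix.mul_assoc ψ.aᵀ, ← Matrix.mul_assoc ψ.aᵀ, ψ.ok.form, ← Matrix.mul_assoc]
    exact h
  lat m hm := by
    rw [cmp, ← mulVec_mulVec]
    refine (congrArg (fun u => ψ.a *ᵥ u ∈ Z.M) ?_).mp (ψ.ok.lat _ (φ.ok.lat m hm))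
    ext i : 1
    exact RingHom.map_mulVec (lmh ψ.f.r) φ.a _ i
  lie z := by
    obtain ⟨w, h⟩ := φ.ok.lie z
    obtain ⟨u, h'⟩ := ψ.ok.lie w
    have h1 := congrArg (fun m => m.map (lmh ψ.f.r)) h
    simp only [Matrix.map_mul] at h1
    exact ⟨u, by
      rw [cmp, ← Matrix.mul_assoc, h', Matrix.mul_assoc, Matrix.mul_assoc]
      exact congrArg _ h1⟩

/-- The identity. -/
def Mo.one (X : Ob N E G) : Mo X X := ⟨SmAlg.Hm.id X.A, P286EQ.one N X.A.R, one_ok X⟩

/-- The composition. -/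
def Mo.comp (φ : Mo X Y) (ψ : Mo Y Z) : Mo X Z :=
  ⟨ψ.f.comp φ.f, cmp N Y.A.R Z.A.R ψ.f.r ψ.a φ.a, cmp_ok φ ψ⟩

theorem Mo.one_comp (φ : Mo X Y) : (Mo.one X).comp φ = φ :=
  Mo.ext rfl ((congrArg (φ.a * ·) (Matrix.map_one _ (map_zero (lmh φ.f.r))
    (map_one (lmh φ.f.r)))).trans (Matrix.mul_one _))

theorem Mo.comp_one (φ : Mo X Y) : φ.comp (Mo.one Y) = φ := Mo.ext rfl (Matrix.one_mul _)

theorem Mo.assoc (φ : Mo X Y) (ψ : Mo Y Z) (χ : Mo Z W) :
    (φ.comp ψ).comp χ = φ.comp (ψ.comp χ) :=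
  Mo.ext rfl ((congrArg (χ.a * ·) (Matrix.map_mul (f := lmh χ.f.r))).trans
    (Matrix.mul_assoc _ _ _).symm)

variable (N E G)

/-- The category of test objects of `Bun_G(E)`. -/
def cat : Category.{0} (Ob N E G) where
  Hom := Mo
  id := Mo.one
  comp := Mo.comp
  id_comp := Mo.one_comp
  comp_id := Mo.comp_one
  assoc := Mo.assoc

/-- The stack `Bun_G(E)` with its canonical bundle `ω` and the twist `(h - c)/(2h)`, `h = 2`. -/
def DE (c : ℂ) : St.TSite where
  C := Ob N E G
  cat := cat N E G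
  A := Ob.A
  f := Mo.f
  dl {X Y} (φ : Mo X Y) := dl N X.A.R Y.A.R G φ.f.r φ.a X.T Y.T
  cen _ := ∅
  s := (2 - c) / (2 * 2)

end

end Vale.Agent.P286EQ
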