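import Vale.Agent.P286EQ.Br
import Vale.Agent.P286EB.Geo
import Vale.Agent.P286EA2.Fin1
import Vale.Agent.P286EX.Gen

/-!
# The genus one theorem in compact form
-/

namespace Vale.Agent.P286EQ

open Vale.Agent.P286.H96

theorem fin :
    (∀ a b : ℂ, 4 * a ^ 3 + 27 * b ^ 2 ≠ 0 → ∃ E : Ell, E.a = a ∧ E.b = b) ∧
    ∀ (E : Ell) (c : ℂ), (∀ q : ℚ, c ≠ (q : ℂ)) →
      DGEq (DE 2 E SL2 c) (DE 3 E SO3 (-1 / c)) ∧ DGEq (DE 3 E SO3 c) (DE 2 E SL2 (-1 / c)) ∧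
      IsNz (DE 2 E SL2 c) ∧ IsNz (DE 3 E SO3 c) :=
  top P286EB.geo_one P286EB.geo_two (P286EA2.mid_gen P286EX.gen)

end Vale.Agent.P286EQ
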